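import Mathlib

/-!
# P261, leaf A1: the abstract induction step for the forms of all weights
-/

namespace Vale.Agent.P261

theorem finite_of_step {R S : Type} [CommRing R] [CommRing S] {ι : Type} (φ : ι → R →+* R)
    (c : ι → Rˣ) (φ' : ι → S →+* S) (π : R →+* S) (hπ : ∀ i a, π (φ i a) = φ' i (π a)) (x : R)
    (hx : ∀ a, x * a = 0 → a = 0) (hker : ∀ a, π a = 0 → ∃ b, a = x * b)
    (hsep : ∀ a, (∀ n : ℕ, ∃ b, a = x ^ n * b) → a = 0) (d : ℤ) (hd : 0 < d)
    (hxd : ∀ i, φ i x = ((c i ^ d : Rˣ) : R) * x)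
    (hS : ∀ w : ℤ, {a : S | ∀ i, φ' i a = ((Units.map (π : R →* S) (c i) ^ w : Sˣ) : S) * a}.Finite)
    (hS0 : ∀ w : ℤ, w < 0 → ∀ a : S, (∀ i, φ' i a = ((Units.map (π : R →* S) (c i) ^ w : Sˣ) : S) * a) →
      a = 0) (w : ℤ) :
    {a : R | ∀ i, φ i a = ((c i ^ w : Rˣ) : R) * a}.Finite ∧
      (w < 0 → ∀ a : R, (∀ i, φ i a = ((c i ^ w : Rˣ) : R) * a) → a = 0) := by
  -- forms go to forms
  have h1 : ∀ (w : ℤ) (a : R), (∀ i, φ i a = ((c i ^ w : Rˣ) : R) * a) →
      ∀ i, φ' i (π a) = ((Units.map (π : R →* S) (c i) ^ w : Sˣ) : S) * π a := by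
    intro w a ha i
    rw [← hπ, ha i, map_mul]
    congr 1
    rw [← map_zpow]
    rfl
  -- division by x
  have h2 : ∀ (w : ℤ) (a : R), (∀ i, φ i a = ((c i ^ w : Rˣ) : R) * a) → π a = 0 →
      ∃ b, a = x * b ∧ ∀ i, φ i b = ((c i ^ (w - d) : Rˣ) : R) * b := by
    intro w a ha ha0
    obtain ⟨b, rfl⟩ := hker a ha0
    refine ⟨b, rfl, fun i => ?_⟩
    have h3 := ha i
    rw [map_mul, hxd i] at h3
    have h4 : x * (((c i ^ d : Rˣ) : R) * φ i b - ((c i ^ w : Rˣ) : R) * b) = 0 := by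
      rw [mul_sub]
      linear_combination h3
    have h5 := sub_eq_zero.1 (hx _ h4)
    have h6 : φ i b = (((c i ^ d)⁻¹ : Rˣ) : R) * (((c i ^ w : Rˣ) : R) * b) := by
      rw [← h5, ← mul_assoc, Units.inv_mul, one_mul]
    rw [h6, ← mul_assoc, ← Units.val_mul, ← zpow_neg, ← zpow_add]
    congr 3
    ring
  -- negative weights
  have h3 : ∀ n : ℕ, ∀ w : ℤ, w < 0 → ∀ a : R, (∀ i, φ i a = ((c i ^ w : Rˣ) : R) * a) →
      ∃ b, a = x ^ n * b := by
    intro n
    induction n with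
    | zero => intro w _ a _; exact ⟨a, by simp⟩
    | succ n ih =>
      intro w hw a ha
      obtain ⟨b, rfl, hb⟩ := h2 w a ha (hS0 w hw _ (h1 w a ha))
      obtain ⟨b', hb'⟩ := ih (w - d) (by omega) b hb
      exact ⟨b', by rw [hb']; ring⟩
  have h4 : ∀ w : ℤ, w < 0 → ∀ a : R, (∀ i, φ i a = ((c i ^ w : Rˣ) : R) * a) → a = 0 :=
    fun w hw a ha => hsep a fun n => h3 n w hw a ha
  refine ⟨?_, fun hw a ha => h4 w hw a ha⟩
  -- finiteness
  have h5 : ∀ n : ℕ, ∀ w : ℤ, w < n →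
      {a : R | ∀ i, φ i a = ((c i ^ w : Rˣ) : R) * a}.Finite := by
    intro n
    induction n with
    | zero =>
      intro w hw
      refine (Set.finite_singleton (0 : R)).subset ?_
      intro a ha
      exact h4 w (by simpa using hw) a ha
    | succ n ih =>
      intro w hw
      refine Set.Finite.of_finite_fibers (fun a => π a) ?_ ?_
      · refine (hS w).subset ?_
        rintro _ ⟨a, ha, rfl⟩
        exact h1 w a ha
      · rintro _ ⟨a₀, ha₀, rfl⟩
        refine ((ih (w - d) (by push_cast at hw; omega)).image fun b => a₀ + x * b).subset ?_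
        rintro a ⟨ha, hπa⟩
        have hπa' : π a = π a₀ := hπa
        have h6 : ∀ i, φ i (a - a₀) = ((c i ^ w : Rˣ) : R) * (a - a₀) := by
          intro i
          rw [map_sub, ha i, ha₀ i, mul_sub]
        obtain ⟨b, hb, hb'⟩ := h2 w (a - a₀) h6 (by rw [map_sub, hπa', sub_self])
        exact ⟨b, hb', by change a₀ + x * b = a; rw [← hb]; ring⟩
  exact h5 (w.toNat + 1) w (by
    have := Int.self_le_toNat w
    push_cast
    omega)

end Vale.Agent.P261
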